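import Mathlib
import Vale.Agent.P092.H103.StD

/-!
P092 (helper655): literal form of the final statement of the sharp rank theorem.
-/

open MeasureTheory

namespace Vale.Agent.P092.H655

open Vale.Agent.P092.H160 Vale.Agent.P092.H160.St Vale.Agent.P092.H103.St

/-- A family `U_v`, `v ∈ Λ`, of partial isometries of `M_k(L(Γ))` which represents `Λ` by unitaries
of the corner given by the projection `U_1 ≠ 0`, with the trace of the regular representation: the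
same as a trace preserving embedding of `L(Λ)` in a corner of `M_k(L(Γ))`. -/
structure TraceRep (Λ Γ : Type) [Group Λ] [Group Γ] (k : ℕ) (U : Λ → MOp k Γ) : Prop where
  mem : ∀ v, InM (U v)
  mul : ∀ v w, mmul (U v) (U w) = U (v * w)
  adj : ∀ v, IsMAdj (U v) (U v⁻¹)
  tr_zero : ∀ v, v ≠ 1 → mtr (U v) = 0
  tr_one : mtr (U 1) ≠ 0

/-- `SL_n(ℝ)` -/
abbrev SLR (n : ℕ) : Type := Matrix.SpecialLinearGroup (Fin n) ℝ

/-- `Λ` is a lattice in `SL_n(ℝ)`: it is discrete and `SL_n(ℝ)/Λ` carries a nonzero finite invariant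
Borel measure. -/
structure IsLat (n : ℕ) (Λ : Subgroup (SLR n)) : Prop where
  disc : DiscreteTopology Λ
  covol : ∃ ν : @Measure (SLR n ⧸ Λ) (borel (SLR n ⧸ Λ)), ν ≠ 0 ∧ ν Set.univ < ⊤ ∧
    ∀ g : SLR n, ∀ s : Set (SLR n ⧸ Λ), MeasurableSet[borel (SLR n ⧸ Λ)] s → ν ((fun x => g • x) ⁻¹' s) = ν s

/-- The final statement. -/
def Final : Prop :=
  (∀ m n : ℕ, 1 ≤ m → m < n →
    ∀ (Γ₀ : Subgroup (SLR m)), DiscreteTopology Γ₀ → ∀ (Λ₀ : Subgroup (SLR n)), IsLat n Λ₀ →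
    ∀ (Γ Λ : Type) [Group Γ] [Group Λ] (i : Γ₀ →* Γ) (j : Λ₀ →* Λ), Function.Injective i →
    i.range.FiniteIndex → Function.Injective j → ∀ k : ℕ,
      (∀ U : Λ → MOp k Γ, ¬ TraceRep Λ Γ k U) ∧
      ((∀ g : Γ, g ≠ 1 → Set.Infinite {y : Γ | ∃ h, y = h * g * h⁻¹}) →
        ∀ p : MOp k Γ, IsProj p → IsEmpty (CornerIso Λ Γ k p))) ∧
  (∀ m n : ℕ, 2 ≤ m → m < n →
    ∀ (Γ : Subgroup (Matrix.ProjectiveSpecialLinearGroup (Fin m) ℤ))
      (Λ : Subgroup (Matrix.ProjectiveSpecialLinearGroup (Fin n) ℤ)),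
      Γ.FiniteIndex → Λ.FiniteIndex → ∀ (k : ℕ) (p : MOp k Γ), IsProj p →
      IsEmpty (CornerIso Λ Γ k p))

end Vale.Agent.P092.H655
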