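import Vale.Agent.P092.H701.SLn

/-!
P092 (helper655): the first direction of the chain of `SL_{n+1}(k)` (and of products) tends to
infinity.
-/

set_option linter.all false

open Filter Topology Matrix

namespace Vale.Agent.P092.H655

open Vale.Agent.P092.H701

variable {k : Type*} [NontriviallyNormedField k]

theorem tor_pow_entry (n : ℕ) {w : k} (hw : w ≠ 0) (j : Fin (n + 1)) (N : ℕ) :
    (tor n hw j ^ N).1 j j = (w ^ (n - (j : ℕ))) ^ N := by
  have h := tor_pow_row n hw j j N 1
  rw [mul_one] at h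
  have h1 := congrFun h j
  rw [h1, dg_self]
  simp

/-- `tor ^ N` tends to infinity. -/
theorem tendsto_tor (n : ℕ) {w : k} (hw : w ≠ 0) (hw1 : 1 < ‖w‖) (j : Fin (n + 1))
    (hj : (j : ℕ) < n) :
    Tendsto (fun N : ℕ => tor n hw j ^ N) atTop (cocompact (SpecialLinearGroup (Fin (n + 1)) k)) := by
  have hc : Continuous fun x : SpecialLinearGroup (Fin (n + 1)) k => ‖x.1 j j‖ := by
    have h : Continuous fun x : SpecialLinearGroup (Fin (n + 1)) k => x.1 := continuous_subtype_val
    exact ((continuous_apply j).comp ((continuous_apply j).comp h)).norm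
  rw [hasBasis_cocompact.tendsto_right_iff]
  intro K hK
  obtain ⟨C, hC⟩ := (hK.image hc).bddAbove
  obtain ⟨N₀, hN₀⟩ := pow_unbounded_of_one_lt C hw1
  filter_upwards [eventually_ge_atTop N₀] with N hN hmem
  have h1 : ‖(tor n hw j ^ N).1 j j‖ ≤ C := hC ⟨_, hmem, rfl⟩
  rw [tor_pow_entry, norm_pow, norm_pow] at h1
  have h2 : ‖w‖ ^ N₀ ≤ ‖w‖ ^ N := pow_le_pow_right₀ hw1.le hN
  have h3 : ‖w‖ ^ N ≤ (‖w‖ ^ (n - (j : ℕ))) ^ N := by
    apply pow_le_pow_left₀ (by positivity)
    exact le_self_pow₀ hw1.le (by omega)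
  linarith

/-- The first direction of the chain of `SL_{n+1}(k)` tends to infinity. -/
theorem tendsto_slChain (k : Type*) [NontriviallyNormedField k] [ProperSpace k] (n : ℕ)
    [MeasurableSpace (SpecialLinearGroup (Fin (n + 1)) k)]
    [OpensMeasurableSpace (SpecialLinearGroup (Fin (n + 1)) k)] (j : Fin n) :
    Tendsto ((slChain k n).b j) atTop (cocompact (SpecialLinearGroup (Fin (n + 1)) k)) := by
  have hw1 : 1 < ‖(NormedField.exists_one_lt_norm k).choose‖ :=
    (NormedField.exists_one_lt_norm k).choose_spec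
  exact tendsto_tor n (norm_pos_iff.mp (lt_trans one_pos hw1)) hw1 j.castSucc (by simp)

end Vale.Agent.P092.H655
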